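import Vale.Agent.P346.Constr

namespace Vale.Agent.Results.P346.Theta

open Vale.Agent.P346

universe u

theorem result : ∃ c C : ℝ, 0 < c ∧ ∃ n₀ : ℕ, ∀ (K : Type u) [Field K] (n : ℕ) [NeZero n], n₀ ≤ n →
    (∀ Γ : Circuit (Fin n × Fin n × Fin n) K, Γ.Homog → Γ.output = IMM K n n →
      (n : ℝ) ^ (c * √n) ≤ Γ.size) ∧
    (n : ℝ) ^ (c * √n) ≤ sK K n ∧ (sK K n : ℝ) ≤ (n : ℝ) ^ (C * √n) := by
  refine ⟨1 / 768, 6, by norm_num, ⌈Real.exp 2400⌉₊, fun K _ n _ hn => ?_⟩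
  obtain ⟨d, rfl⟩ := Nat.exists_eq_succ_of_ne_zero (NeZero.ne n)
  rw [Nat.ceil_le] at hn
  have h1 : 6 ≤ d + 1 := by
    have := Real.add_one_le_exp 2400
    exact_mod_cast (show (6 : ℝ) ≤ (d + 1 : ℕ) by linarith)
  have h2 : (blk K (d + 1) ((d + 1).sqrt + 1)).size ∈ {s | ∃ Γ : Circuit _ K, Γ.Homog ∧
      Γ.output = IMM K (d + 1) (d + 1) ∧ Γ.size = s} :=
    ⟨_, blk_hom, blk_out (Nat.lt_succ_sqrt _).le, rfl⟩
  refine ⟨size_ge hn, ?_, ?_⟩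
  · obtain ⟨Γ, a1, a2, a3⟩ := Nat.sInf_mem ⟨_, h2⟩
    exact (size_ge hn Γ a1 a2).trans_eq (congrArg _ a3)
  · refine (Nat.cast_le.2 ((Nat.sInf_le h2).trans
      (blk_size h1 (Nat.sqrt_lt_self (by omega))))).trans ?_
    rw [Nat.cast_pow, ← Real.rpow_natCast]
    refine Real.rpow_le_rpow_of_exponent_le (by simp) ?_
    have a1 : (((d + 1).sqrt : ℕ) : ℝ) ≤ √(d + 1 : ℕ) := Real.nat_sqrt_le_real_sqrt
    have a2 : 1 ≤ √(d + 1 : ℕ) := Real.one_le_sqrt.2 (by simp)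
    rw [Nat.cast_add, Nat.cast_ofNat]
    linarith

end Vale.Agent.Results.P346.Theta
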